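import Vale.Agent.P216.E707.NoGSysQ
import Vale.Agent.P216.Low.Zero
import Vale.Agent.P216.H934D.Bridge
import Vale.Agent.P216.B64.Contract

/-!
# P216-E, block [E4]: the base at the primes at which the cohomology ring is generated by one
element of even degree
-/

open Set Topology
open Module (finrank)
open Vale.Agent.P216.Low
open Vale.Agent.P216.H288 Vale.Agent.P216.H494 Vale.Agent.P216.L250

namespace Vale.Agent.P216

namespace GSys

variable {Λ : Type} [PseudoMetricSpace Λ] (S : GSys Λ) {k : Type} [Field k]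

/-- **D7 at the primes `p` with `Q p`**, abstract form. -/
theorem base_ofQ {s₁ : ℝ} {r : Λ → Λ} (hr : S.Retr s₁ r) (hθ : ∀ x ∈ S.X 0, S.θ x = x)
    {Q : ℕ → Prop}
    (hχ : ∀ p : ℕ, ∀ _ : Fact p.Prime, 2 < p → Q p → ∃ m, ∀ m' ≥ m, ∑ n ∈ Finset.range m',
      (-1 : ℤ) ^ n * (finrank (ZMod p) (S.V (ZMod p) 0 n) : ℤ) ≠ 0) : S.BaseQ Q := by
  obtain ⟨s₀, h0, h1, h2⟩ := S.exists_lt_ℓ hr.pos
  refine ⟨s₀, h0, h2, fun p hp hp2 hQ => ⟨fun n f hf => ?_, ?_⟩⟩
  · -- the reversal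
    have hθm : AS.IsMap (fun _ : Unit => S.τ) (fun _ : Unit => S.τ) (S.X s₀) (S.X s₀) S.θ :=
      AS.IsMap.of_continuousOn (S.compact s₀) (S.cont_θ s₀) (S.θ_mem s₀)
        fun _ x _ => (S.τ_θ x).symm
    have hθ0 : AS.IsMap (fun _ : Unit => S.τ) (fun _ : Unit => S.τ) (S.X 0) (S.X s₀) S.θ :=
      hθm.mono (S.mono _ _ h0.le) ((S.θ_mem 0).mono_right (S.mono _ _ h0.le))
    set x : S.V (ZMod p) s₀ n := AS.H.mk f hf with hx
    have e0 : AS.res (S.mono _ _ h0.le) n (AS.pull (fun _ : Unit => (-1 : ZMod p)) hθm n x) =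
        (AS.res (S.mono _ _ h0.le) n x : S.V (ZMod p) 0 n) := by
      have e2 := AS.pull_eq_res (χ := fun _ : Unit => (-1 : ZMod p)) (n := n)
        (S.mono _ _ h0.le) hθ0 hθ
      exact LinearMap.congr_fun e2 x
    have e1 := (hr.res_bijective (k := ZMod p) h0 h1 h2 n).1 e0
    have e3 : AS.H.mk (AS.pbK (ZMod p) S.θ n f) ((hθm.isMor_Cc le_rfl hθm.mapsX).mapZ hf) =
        (AS.H.mk f hf : S.V (ZMod p) s₀ n) := e1
    rw [AS.H.mk_eq_mk] at e3
    exact e3
  · obtain ⟨m, hm⟩ := hχ p hp hp2 hQ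
    refine ⟨m, fun m' hm' => ?_⟩
    have e : ∀ n, finrank (ZMod p) (S.V (ZMod p) s₀ n) = finrank (ZMod p) (S.V (ZMod p) 0 n) :=
      fun n => (LinearEquiv.ofBijective _
        (hr.res_bijective (k := ZMod p) h0 h1 h2 n)).finrank_eq
    simp only [e]
    exact hm m' hm'

end GSys

section

variable {M : Type} [MetricSpace M]

/-- **D7 at the primes with `Q p`** from the Euler characteristic of `M`. -/
theorem base_of_eulerQ [CompactSpace M] (H : Hol M) (G : GeoList M) (hD : DescentStmt H G)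
    {Q : ℕ → Prop}
    (hχ : ∀ p : ℕ, ∀ _ : Fact p.Prime, 2 < p → Q p → ∃ m, ∀ m' ≥ m, ∑ n ∈ Finset.range m',
      (-1 : ℤ) ^ n * (finrank (ZMod p) (Hu (ZMod p) (univ : Set M) n) : ℤ) ≠ 0) :
    (mkGSys H G hD).BaseQ Q := by
  obtain ⟨s₁, hr⟩ := exists_retr H G hD
  refine GSys.base_ofQ _ hr (fun q hq => ?_) fun p hp hp2 hQ => ?_
  · change q ∈ XX H 0 at hq
    rw [XX_eq le_rfl] at hq
    exact revC_of_mem_zero hq
  · obtain ⟨m, hm⟩ := hχ p hp hp2 hQ
    refine ⟨m, fun m' hm' => ?_⟩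
    simp only [finrank_zero H G hD]
    exact hm m' hm'

end

namespace E707

open AS B64 Sl
open Vale.Agent.P216.H133C (pw)

/-- The two languages for the cohomology without symmetries. -/
theorem hinc_bijective (k : Type) [Field k] {E : Type} [PseudoMetricSpace E] (X : Set E) (n : ℕ) :
    ∃ e : HU k X n →ₗ[k] Hu k X n, Function.Bijective e := by
  have hS : Cc (a0 E) (c0 k) X ≤ Cc (fun _ : Unit => (id : E → E)) (fun _ : Unit => (1 : k)) X :=
    fun n f _ => eqv_id f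
  have hT : Zr (a0 E) (c0 k) X X ≤
      Zr (fun _ : Unit => (id : E → E)) (fun _ : Unit => (1 : k)) X X :=
    fun n f hf => ⟨eqv_id f, hf.2⟩
  refine ⟨Hinc hS hT n, Hmap_bijective (IsMor.id_of_le hS hT) (fun {n x} _ hx => ?_)
    fun {n y} _ => ⟨y, fun e => e.elim, ?_⟩⟩
  · exact ⟨fun e => e.elim, hx.2⟩
  · rw [LinearMap.id_apply, sub_self]
    exact Submodule.zero_mem _

theorem finrank_Hu (k : Type) [Field k] {E : Type} [PseudoMetricSpace E] (X : Set E) (n : ℕ) :
    finrank k (Hu k X n) = finrank k (HU k X n) := by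
  obtain ⟨e, he⟩ := hinc_bijective k X n
  exact (LinearEquiv.ofBijective e he).finrank_eq.symm

section BaseK

variable {k M : Type} [Field k] [MetricSpace M] {d h : ℕ}

theorem finrank_odd (b : H934D.BaseK k M d h) (hd : Even d) {n : ℕ} (hn : Odd n) :
    finrank k (HU k (univ : Set M) n) = 0 := by
  have hs : Subsingleton (HU k (univ : Set M) n) := by
    refine ⟨fun x y => ?_⟩
    have key : ∀ z : HU k (univ : Set M) n, z = 0 := by
      intro z
      obtain ⟨f, hf, -, rfl⟩ := exists_cls z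
      refine cls_eq_zero.2 (b.zero n (fun j _ hj => ?_) f hf)
      rw [hj, ← Nat.not_even_iff_odd] at hn
      exact hn (hd.mul_right j)
    rw [key x, key y]
  exact Module.finrank_zero_of_subsingleton

theorem finrank_zero_pos (b : H934D.BaseK k M d h) :
    0 < finrank k (HU k (univ : Set M) 0) := by
  have hc : CocL (univ : Set M) 0 (pw b.ξ d 0) := H934D.pw_zero_cocL b.ξ d
  have hne : cls (a0 M) (c0 k) (pw b.ξ d 0) hc ≠ 0 := fun h0 => by
    have h1 := cls_eq_zero.1 h0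
    have h2 := b.ne 0 (Nat.zero_le h)
    rw [Nat.mul_zero] at h2
    exact h2 h1
  have h1 : finrank k (HU k (univ : Set M) 0) = 1 := by
    refine finrank_eq_one (cls (a0 M) (c0 k) (pw b.ξ d 0) hc) hne fun z => ?_
    obtain ⟨f, hf, -, rfl⟩ := exists_cls z
    have h2 := b.line 0 (Nat.zero_le h) f
    rw [Nat.mul_zero] at h2
    obtain ⟨a, ha⟩ := h2 hf
    refine ⟨a, ?_⟩
    rw [cls_smul]
    exact (cls_eq_cls.2 ha).symm
  rw [h1]
  exact one_pos

/-- the Euler characteristic is positive -/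
theorem euler_pos (b : H934D.BaseK k M d h) (hd : Even d) {m : ℕ} (hm : 1 ≤ m) :
    0 < ∑ n ∈ Finset.range m, (-1 : ℤ) ^ n * (finrank k (Hu k (univ : Set M) n) : ℤ) := by
  have h1 : ∀ n ∈ Finset.range m,
      0 ≤ (-1 : ℤ) ^ n * (finrank k (Hu k (univ : Set M) n) : ℤ) := by
    intro n _
    rcases Nat.even_or_odd n with h | h
    · rw [h.neg_one_pow, one_mul]
      exact Int.natCast_nonneg _
    · rw [finrank_Hu, finrank_odd b hd h]
      simp
  refine lt_of_lt_of_le ?_ (Finset.single_le_sum h1 (Finset.mem_range.2 hm))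
  rw [pow_zero, one_mul, finrank_Hu]
  exact_mod_cast finrank_zero_pos b

/-- **[E4], base**: `H^*(M; 𝔽_p) = 𝔽_p[ξ] / (ξ ^ (h + 1))`, `ξ` of even degree, for the primes `p`
with `Q p`. -/
theorem baseQ_of_baseK [CompactSpace M] (H : Hol M) (G : GeoList M) (hD : DescentStmt H G)
    (hd : Even d) {Q : ℕ → Prop}
    (hb : ∀ p : ℕ, ∀ _ : Fact p.Prime, 2 < p → Q p → Nonempty (H934D.BaseK (ZMod p) M d h)) :
    (mkGSys H G hD).BaseQ Q := by
  refine base_of_eulerQ H G hD fun p hp hp2 hQ => ⟨1, fun m hm => ?_⟩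
  obtain ⟨b⟩ := hb p hp hp2 hQ
  exact (euler_pos b hd hm).ne'

end BaseK

end E707

end Vale.Agent.P216
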