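import Vale.Agent.P216.E707.Main
import Vale.Agent.P216.H494.EGoal

/-!
# P216-E, block [E4]: `HolStmt`
-/

open Set Topology Bundle Manifold
open scoped ContDiff
open Vale.Agent.P216.H288 Vale.Agent.P216.H494 Vale.Agent.P216.L250 Vale.Agent.P216.H826

namespace Vale.Agent.P216.E707

open Vale.Agent.P216.H934D (BaseK)
open Vale.Agent.P216.PS

section

variable (E : Type) [NormedAddCommGroup E] [NormedSpace ℝ E] [FiniteDimensional ℝ E]
  {M : Type} [MetricSpace M] [ChartedSpace E M] [PreconnectedSpace M]

include E in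
/-- A connected manifold of dimension zero is a point. -/
theorem subsingleton_of_finrank (h0 : Module.finrank ℝ E = 0) : Subsingleton M := by
  have hE : Subsingleton E := Module.finrank_zero_iff.1 h0
  have hs : ∀ x : M, (chartAt E x).source = {x} := by
    intro x
    refine Subset.antisymm (fun y hy => ?_) (singleton_subset_iff.2 (mem_chart_source E x))
    exact (chartAt E x).injOn hy (mem_chart_source E x) (Subsingleton.elim _ _)
  refine ⟨fun x y => ?_⟩
  have ho : IsClopen ({x} : Set M) :=
    ⟨isClosed_singleton, by rw [← hs x]; exact (chartAt E x).open_source⟩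
  rcases isClopen_iff.1 ho with h | h
  · exact absurd h (singleton_nonempty x).ne_empty
  · have hy : y ∈ ({x} : Set M) := by rw [h]; exact mem_univ y
    exact (mem_singleton_iff.1 hy).symm

/-- `M` is not a point. -/
theorem finrank_pos_of_baseK {k : Type} [Field k] {d h : ℕ} (hd : 1 ≤ d) (hh : 1 ≤ h)
    (K : BaseK k M d h) : 1 ≤ Module.finrank ℝ E := by
  by_contra h0
  have hM : Subsingleton M := subsingleton_of_finrank E (by omega)
  refine K.ne 1 hh ⟨fun _ => 0, fun _ _ => rfl, 1, one_pos, fun l hl _ => ?_⟩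
  rw [PS.dl_zero_fun]
  refine H934D.pw_Nrm K.nξ 1 l fun hc => ?_
  rcases l with _ | ⟨x, _ | ⟨y, l⟩⟩
  · simp at hl
  · simp only [List.length_cons, List.length_nil] at hl
    omega
  · rw [List.isChain_cons_cons] at hc
    exact hc.1 (Subsingleton.elim x y)

end

/-- **[E4]** -/
theorem holStmt : H494E.HolStmt := by
  intro E _ _ _ N _ _ _ _ _ _ _ _ h hh hQ H hsw
  obtain ⟨K⟩ : Nonempty (BaseK ℚ N 2 h) := H934D.baseK_of_monogenic (by norm_num) hQ
  exact infinite_of_sweep_monogenic (E := E) (finrank_pos_of_baseK E (by norm_num) hh K)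
    (by norm_num) even_two hQ fun _ _ _ => ⟨H, hsw⟩

end Vale.Agent.P216.E707
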