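import Vale.Agent.P216.E707.BaseQ
import Vale.Agent.P216.Spine.Main
import Vale.Agent.P216.H288.SweepMain
import Vale.Agent.P216.H826.BarsG
import Vale.Agent.P216.H804.D6
import Vale.Agent.P216.GM.TW
import Vale.Agent.P216.H319.Loc
import Vale.Agent.P216.H844.F4Fin
import Vale.Agent.P216.D773.Rat

/-!
# P216-E, block [E4]: Theorem A for a holonomy with sweeps, base at an unbounded set of primes
-/

open Set Topology Bundle Manifold
open scoped ContDiff
open Vale.Agent.P216.H288 Vale.Agent.P216.H494 Vale.Agent.P216.L250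

namespace Vale.Agent.P216.E707

/-- **[E4]** Theorem A for a holonomy with sweeps; the base is only needed for the primes `p` with
`Q p`, `Q` unbounded. -/
theorem infinite_of_sweepQ {E : Type} [NormedAddCommGroup E] [NormedSpace ℝ E]
    [FiniteDimensional ℝ E]
    {M : Type} [MetricSpace M] [CompactSpace M] [ChartedSpace E M] [IsManifold 𝓘(ℝ, E) ∞ M]
    [RiemannianBundle (fun x : M => TangentSpace 𝓘(ℝ, E) x)]
    [IsContMDiffRiemannianBundle 𝓘(ℝ, E) ∞ E (fun x : M => TangentSpace 𝓘(ℝ, E) x)]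
    [IsRiemannianManifold 𝓘(ℝ, E) M] [PreconnectedSpace M]
    (hH : ∀ ρ : ℝ, 0 < ρ → LS.UniqSeg M ρ →
      ∃ H : Hol M, ∀ x₀ : M, ∃ b w μ, H826.IsSweep H x₀ b w μ)
    {Q : ℕ → Prop} (hQ : ∀ N : ℕ, ∃ p, N < p ∧ p.Prime ∧ Q p)
    (hbase : ∀ (H : Hol M) (G : GeoList M) (hD : DescentStmt H G), (mkGSys H G hD).BaseQ Q) :
    (primeClosedGeodesicImages M).Infinite := by
  intro hfin
  obtain ⟨ρ, hρ, hs, _⟩ := Geo.exists_uniqSeg E M
  obtain ⟨G⟩ := exists_geoList (nonBranching_of_riemannian (E := E) (M := M)) hfin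
  obtain ⟨H, hH⟩ := hH ρ hρ hs
  have hD : DescentStmt H G := descentStmt H G hρ hs
  have hB : (mkGSys H G hD).Bars := H826.bars_mkGSys H G hD hρ hs hH
  have hBd : (mkGSys H G hD).Bound :=
    GM.bound hρ hs (H319.loc (E := E) hρ hs (H844.f4_M E M)) GM.tw H G hD hB
  exact GSys.no_gsysQ _ hB hBd hQ (hbase H G hD)

/-- **[E4]** Theorem A for a holonomy with sweeps on a closed manifold with
`H^*(M; ℚ) = ℚ[x] / (x ^ (h + 1))`, `x` of even degree `d`. -/
theorem infinite_of_sweep_monogenic {E : Type} [NormedAddCommGroup E] [NormedSpace ℝ E]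
    [FiniteDimensional ℝ E]
    {M : Type} [MetricSpace M] [CompactSpace M] [ChartedSpace E M] [IsManifold 𝓘(ℝ, E) ∞ M]
    [RiemannianBundle (fun x : M => TangentSpace 𝓘(ℝ, E) x)]
    [IsContMDiffRiemannianBundle 𝓘(ℝ, E) ∞ E (fun x : M => TangentSpace 𝓘(ℝ, E) x)]
    [IsRiemannianManifold 𝓘(ℝ, E) M] [ConnectedSpace M] (hE : 1 ≤ Module.finrank ℝ E)
    {d h : ℕ} (hd1 : 1 ≤ d) (hd : Even d) (hM : ASCoh.Monogenic M ℚ d h)
    (hH : ∀ ρ : ℝ, 0 < ρ → LS.UniqSeg M ρ →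
      ∃ H : Hol M, ∀ x₀ : M, ∃ b w μ, H826.IsSweep H x₀ b w μ) :
    (primeClosedGeodesicImages M).Infinite := by
  obtain ⟨ρ, hρ, hs, _⟩ := Geo.exists_uniqSeg E M
  obtain ⟨N, hN⟩ := D773.rat_prime E hE hρ hs hd1 hM
  refine infinite_of_sweepQ (E := E) hH (Q := fun p => N < p) (fun K => ?_) fun H G hD => ?_
  · obtain ⟨p, hp, hpp⟩ := Nat.exists_infinite_primes (max K N + 1)
    have h1 : K ≤ max K N := le_max_left _ _
    have h2 : N ≤ max K N := le_max_right _ _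
    exact ⟨p, by omega, hpp, by omega⟩
  · exact baseQ_of_baseK H G hD hd fun p hp _ hNp => (hN p hNp).2

end Vale.Agent.P216.E707
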