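import Vale.Agent.P216.AS.NoGSys
import Vale.Agent.P216.B609.EndQ

/-!
# P216-E, block [E4]: the topological half with a base only at an unbounded set of primes
-/

set_option linter.unusedSectionVars false

open Set Topology
open Module (finrank)

namespace Vale.Agent.P216.GSys

open AS AS.GCx.Pair

variable {Λ : Type}

/-- D7 for the primes `p` with `Q p`: at a small level the reversal acts as the identity and the
Euler characteristic is not zero. -/
def BaseQ [PseudoMetricSpace Λ] (S : GSys Λ) (Q : ℕ → Prop) : Prop :=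
  ∃ s₀ : ℝ, 0 < s₀ ∧ (∀ i, s₀ < S.ℓ i) ∧
    ∀ p : ℕ, ∀ _ : Fact p.Prime, 2 < p → Q p →
      (∀ n, ∀ f ∈ AS.Zc (S.CS (ZMod p) s₀) (S.CT (ZMod p) s₀) n,
        P265.AS.pb S.θ f - f ∈ AS.Bc (S.CS (ZMod p) s₀) (S.CT (ZMod p) s₀) n) ∧
      ∃ m, ∀ m' ≥ m, ∑ n ∈ Finset.range m', (-1 : ℤ) ^ n *
        (finrank (ZMod p) (S.V (ZMod p) s₀ n) : ℤ) ≠ 0

section Fixed

variable [PseudoMetricSpace Λ] {S : GSys Λ} {K : ℕ} (hK : S.Bd K) {p : ℕ} [hpp : Fact p.Prime]
  (hp : 0 < p) (h2 : 2 < p) {Q : ℕ → Prop} (hQ : Q p)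

include hK h2 hQ in
/-- the Lefschetz number is not zero at each regular level -/
theorem lef_neQ (hBase : S.BaseQ Q) (hbal : S.CrossBal) {s : ℝ} (hs : 0 < s)
    (hsc : s ∉ AS.Crit S.ℓ) (m : ℕ) : ∃ m' ≥ m,
      ∑ n ∈ Finset.range m', (-1 : ℤ) ^ n * chi (rH (S.P_rstable (ZMod p) p hp s) n) ≠ 0 := by
  obtain ⟨s₀, hs₀, hs₀ℓ, hb⟩ := hBase
  obtain ⟨hid, m₀, hm₀⟩ := hb p hpp h2 hQ
  refine (S.sys (ZMod p) p hp).lef_ne_zero (K := AS.Crit S.ℓ) S.crit_fin (two_ne_zero' h2)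
    ?_ ?_ ?_ ?_ hs₀ ?_ ?_ ?_ hs hsc m
  · intro s hs hsc n
    exact fin_V hK h2 hs hsc n
  · intro s hs hsc
    exact H985.Sys.van_of_bound (hK p hpp h2 s hs hsc).2
  · intro s t h hs hcrit n
    exact S.res_bijective hs h hcrit (S.mono s t h) n
  · intro c hc hc0 ε hε
    obtain ⟨e₀, he₀, hec, h⟩ := hbal p hp h2 c hc0
    obtain ⟨e, he, hlt, h1, h3⟩ := exists_regular_pm S.crit_fin c (lt_min hε he₀)
    have h4 := lt_of_lt_of_le hlt (min_le_left _ _)
    have h5 := lt_of_lt_of_le hlt (min_le_right _ _)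
    refine ⟨c - e, c + e, by linarith, by linarith, by linarith, by linarith, by linarith,
      by linarith, h1, h3, ?_⟩
    refine (h e he h5.le (S.finite_Q _ ?_ ?_)).1
    · exact fin_V hK h2 (by linarith) h3
    · exact fin_V hK h2 (by linarith) h1
  · rintro ⟨i, m, hm, h⟩
    have h1 := hs₀ℓ i
    have h3 : (1 : ℝ) ≤ m := by exact_mod_cast hm
    have h4 := S.ℓ_pos i
    have h5 : S.ℓ i ≤ m * S.ℓ i := le_mul_of_one_le_left h4.le h3
    linarith
  · intro n x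
    obtain ⟨f, hf, rfl⟩ := H.exists_mk x
    exact (H.mk_eq_mk (x := P265.AS.pb S.θ f) (y := f)).mpr (hid n f hf)
  · exact Filter.eventually_atTop.mpr ⟨m₀, hm₀⟩

section Window

variable {α β : ℝ} (hα : 0 < α) (hfree : ∀ x ∈ Ioo α β, x / (p : ℝ) ∉ AS.Crit S.ℓ)
  (hN : ∀ s ∈ Ioo α β, s ∉ AS.Crit S.ℓ → S.N p (s / p) = S.N p s)

include hK hp h2 hα hfree hN hQ

theorem winQ {B : ℝ} (hB : 0 < B)
    (hbars : ∀ s : ℝ, 0 < s → ∀ (h : S.X s ⊆ S.X (s + B)) (n : ℕ)
      (x : S.V (ZMod p) (s + B) n), AS.res h n x = 0)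
    (hBase : S.BaseQ Q) (hloc : S.Loc) (htors : S.CrossTors) (hbal : S.CrossBal) :
    β - α ≤ (4 * K + 2) * (B + 1) + 1 := by
  by_contra hcon
  push Not at hcon
  set L := 4 * K + 2 with hL
  have hreg : ∀ j : ℕ, ∃ x ∈ Ioo (α + j * (B + 1)) (α + j * (B + 1) + 1), x ∉ AS.Crit S.ℓ :=
    fun j => exists_regular S.crit_fin (by linarith)
  choose x hx hxc using hreg
  let σ : ℕ → ℝ := fun j => x (min j L)
  have hσc : ∀ j, σ j ∉ AS.Crit S.ℓ := fun j => hxc _
  have hσ : ∀ j, σ j ∈ Ioo α β := by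
    intro j
    have h1 := hx (min j L)
    have h3 : ((min j L : ℕ) : ℝ) ≤ L := by exact_mod_cast min_le_right j L
    have h4 : (0 : ℝ) ≤ (min j L : ℕ) := Nat.cast_nonneg _
    have h5 : ((min j L : ℕ) : ℝ) * (B + 1) ≤ L * (B + 1) :=
      mul_le_mul_of_nonneg_right h3 (by linarith)
    have h6 : 0 ≤ ((min j L : ℕ) : ℝ) * (B + 1) := by positivity
    have h7 : (L : ℝ) = 4 * K + 2 := by rw [hL]; push_cast; ring
    rw [← h7] at hcon
    exact ⟨by linarith [h1.1], by linarith [h1.2]⟩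
  have hσ0 : ∀ j, 0 < σ j := fun j => hα.trans (hσ j).1
  have hstep : ∀ j, j < L → σ j + B ≤ σ (j + 1) := by
    intro j hj
    have e1 : σ j = x j := by
      change x (min j L) = x j
      rw [min_eq_left hj.le]
    have e2 : σ (j + 1) = x (j + 1) := by
      change x (min (j + 1) L) = x (j + 1)
      rw [min_eq_left (by omega)]
    rw [e1, e2]
    have h1 := (hx j).2
    have h3 := (hx (j + 1)).1
    push_cast at h3
    linarith
  have hmono : ∀ j, σ j ≤ σ (j + 1) := by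
    intro j
    rcases lt_or_ge j L with hj | hj
    · linarith [hstep j hj]
    · change x (min j L) ≤ x (min (j + 1) L)
      rw [min_eq_right hj, min_eq_right (by omega)]
  have f1 : ∀ j n, FiniteDimensional (ZMod p) ((S.P (ZMod p) p hp (σ j)).HH n) := fun j n =>
    fin_V hK h2 (hσ0 j) (hσc j) n
  have f2 : ∀ j n, FiniteDimensional (ZMod p) ((S.P (ZMod p) p hp (σ j)).FF n) := fun j =>
    (S.P (ZMod p) p hp (σ j)).finite_F (f1 j)
  have f3 : ∀ j n, FiniteDimensional (ZMod p) ((S.P (ZMod p) p hp (σ j)).EE n) := fun j =>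
    (S.P (ZMod p) p hp (σ j)).finite_E (f1 j)
  have hPP : ∀ j, S.PP (ZMod p) p hp (σ j) (σ (j + 1)) := fun j =>
    pp_win hK hp h2 hα hfree hN hloc htors hbal (hσ j).1 (hmono j) (hσ (j + 1)).2 (hσc j)
      (hσc (j + 1))
  have hw := window (k := ZMod p) (two_ne_zero' h2) (fun j => (S.P (ZMod p) p hp (σ j)).HH)
    (fun j => (S.P (ZMod p) p hp (σ j)).FF) (fun j => (S.P (ZMod p) p hp (σ j)).EE) L K
    (fun j => S.N p (σ j)) (fun j => S.level (ZMod p) p hp (σ j))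
    (fun j _ => N_le hK h2 (hσ0 j) (hσc j))
    (fun j _ m => le_N hK h2 (hσ0 j) (hσc j) m)
    (fun j _ m => hF_win hK hp h2 hα hfree hN hloc (hσ j) (hσc j) m)
    (lef_neQ hK hp h2 hQ hBase hbal (hσ0 0) (hσc 0))
    (by
      obtain ⟨J, hJ, _⟩ := exists_N hK h2 (hσ0 0) (hσc 0)
      exact ⟨J, hJ⟩)
    (fun j => S.levelHom (ZMod p) p hp (hmono j))
    (by
      intro j hj n y
      have h1 : S.X (σ j) ⊆ S.X (σ j + B) := S.mono _ _ (by linarith)
      have h3 : S.X (σ j + B) ⊆ S.X (σ (j + 1)) := S.mono _ _ (hstep j hj)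
      have h4 := hbars (σ j) (hσ0 j) h1 n (AS.res h3 n y)
      refine Eq.trans ?_ h4
      obtain ⟨y, hy, rfl⟩ := H.exists_mk y
      rfl)
    (fun j _ n => by
      obtain ⟨h, h'⟩ := hPP j
      exact (h' n).1)
    (fun j _ n => by
      obtain ⟨h, h'⟩ := hPP j
      exact (h' n).2)
  omega

end Window

end Fixed

section Main

variable [MetricSpace Λ] (S : GSys Λ)

/-- **The topological half**: no system with bounded bars, bounded cohomology, and a base at an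
unbounded set of primes. -/
theorem no_gsysQ (hBars : S.Bars) (hBound : S.Bound) {Q : ℕ → Prop}
    (hQ : ∀ N : ℕ, ∃ p, N < p ∧ p.Prime ∧ Q p) (hBase : S.BaseQ Q) : False := by
  have hloc := S.loc_prop
  have htors := S.crossTors_prop
  have hbal := S.crossBal_prop
  obtain ⟨K, hK⟩ := hBound
  obtain ⟨B, hB, hbars⟩ := hBars
  have := S.fin
  obtain ⟨c, hc, key⟩ := B609.endgame1 S.ℓ S.ℓ_pos
  obtain ⟨p, hpN, hp, hQp⟩ := hQ (max 2 ⌈((4 * K + 2) * (B + 1) + 1) / c⌉₊)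
  have h2 : 2 < p := lt_of_le_of_lt (le_max_left _ _) hpN
  have := Fact.mk hp
  have hC : ((4 * K + 2) * (B + 1) + 1 : ℝ) < p * c := by
    rw [← div_lt_iff₀ hc]
    have h3 : ⌈((4 * K + 2) * (B + 1) + 1) / c⌉₊ < p := lt_of_le_of_lt (le_max_right _ _) hpN
    exact (Nat.le_ceil _).trans_lt (by exact_mod_cast h3)
  refine key p h2 (S.N p) K _ hC ?_ ?_ ?_ ?_
  · intro s hs hsc
    exact N_le hK h2 hs hsc
  · intro s t hs hst hcrit
    exact S.N_const hp hs hst hcrit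
  · intro s hs hsc hpsc
    have hp' : (0 : ℝ) < p := by exact_mod_cast hp.pos
    have hps : 0 < (p : ℝ) * s := by positivity
    have f1 : ∀ n, FiniteDimensional (ZMod p) ((S.P (ZMod p) p hp.pos (p * s)).HH n) :=
      fin_V hK h2 hps hpsc
    have f2 := (S.P (ZMod p) p hp.pos (p * s)).finite_F f1
    have f3 := (S.P (ZMod p) p hp.pos (p * s)).finite_E f1
    obtain ⟨n, _, hn⟩ := loc_N hK hp.pos h2 hloc rfl hs hsc hpsc 0
    exact (S.level (ZMod p) p hp.pos (p * s)).smith (S.N p (p * s)) (S.N p s)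
      (le_N hK h2 hps hpsc) ⟨n, hn⟩
  · intro α β hα _ hfree hN
    exact winQ hK hp.pos h2 hQp hα hfree hN hB (hbars p this h2) hBase hloc htors hbal

end Main

end Vale.Agent.P216.GSys
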